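import Mathlib
import Vale.Agent.Lib.P209.Defs
import Vale.Agent.Lib.P209.Words

open Vale.Agent.Lib.P209

namespace Vale.Agent.Results.P209.TwoPowN

/-- Sufficiency in Conjecture A of Siegel and Yao for all `k ≤ 2 ^ n` (first part), and for
one larger ball together with up to `(m + t) ^ n - m ^ n` smaller ones (second part). -/
theorem result :
    (∀ (n k : ℕ) (R : ℝ) (r : Fin k → ℝ), 1 ≤ n → k ≤ 2 ^ n → 0 < R → (∀ i, 0 < r i) →
      ∑ i, r i ^ n < R ^ n → (∀ i j, i ≠ j → r i + r j < R) → BallsPack n k R r) ∧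
    (∀ (n k m t : ℕ) (R a b : ℝ) (r : Fin k → ℝ) (i₀ : Fin k), 1 ≤ n → 1 ≤ t →
      0 < a → 0 < b → (∀ i, 0 < r i) → r i₀ ≤ a → (∀ i, i ≠ i₀ → r i ≤ b) →
      m * b ≤ a → a + t * b < R → k + m ^ n ≤ 1 + (m + t) ^ n → BallsPack n k R r) :=
  ⟨fun _ _ _ r hn hk hR hr hvol hpair => pack_two_pow r hn hk hr hvol hR hpair,
    fun _ _ _ _ _ _ _ r i₀ hn ht ha hb hr h0 h1 hm hR hk =>
      pack_one_big r i₀ hn ht ha hb hr h0 h1 hm hR hk⟩

end Vale.Agent.Results.P209.TwoPowN
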