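import Mathlib
import Vale.Agent.Lib.P209.Defs
import Vale.Agent.Lib.P209.Words
import Vale.Agent.Lib.P209.Main

open Vale.Agent.Lib.P209

namespace Vale.Agent.Results.P209.TwoPowNAndSmall

/-- Sufficiency in Conjecture A of Siegel and Yao: for all `k ≤ 2 ^ n`; for one larger ball
together with up to `(m + t) ^ n - m ^ n` smaller ones; and, for arbitrary `k`, for total volume at
most `(1 - η)` of the volume of the big ball when at most `2 ^ n` of the balls are not small. -/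
theorem result :
    (∀ (n k : ℕ) (R : ℝ) (r : Fin k → ℝ), 1 ≤ n → k ≤ 2 ^ n → 0 < R → (∀ i, 0 < r i) →
      ∑ i, r i ^ n < R ^ n → (∀ i j, i ≠ j → r i + r j < R) → BallsPack n k R r) ∧
    (∀ (n k m t : ℕ) (R a b : ℝ) (r : Fin k → ℝ) (i₀ : Fin k), 1 ≤ n → 1 ≤ t →
      0 < a → 0 < b → (∀ i, 0 < r i) → r i₀ ≤ a → (∀ i, i ≠ i₀ → r i ≤ b) →
      m * b ≤ a → a + t * b < R → k + m ^ n ≤ 1 + (m + t) ^ n → BallsPack n k R r) ∧
    (∀ (n : ℕ) (η : ℝ), 1 ≤ n → 0 < η → ∃ ε : ℝ, 0 < ε ∧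
      ∀ (k : ℕ) (R : ℝ) (r : Fin k → ℝ), 0 < R → (∀ i, 0 < r i) →
        (∀ i j, i ≠ j → r i + r j < R) → ∑ i, r i ^ n ≤ (1 - η) * R ^ n →
        Nat.card {i : Fin k // ε * R < r i} ≤ 2 ^ n → BallsPack n k R r) :=
  ⟨fun _ _ _ r hn hk hR hr hvol hpair => pack_two_pow r hn hk hr hvol hR hpair,
    fun _ _ _ _ _ _ _ r i₀ hn ht ha hb hr h0 h1 hm hR hk =>
      pack_one_big r i₀ hn ht ha hb hr h0 h1 hm hR hk,
    fun _ _ hn hη => pack_main hn hη⟩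

end Vale.Agent.Results.P209.TwoPowNAndSmall
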